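import Vale.Agent.P287Q.Lat.Defs
import Mathlib.FieldTheory.Finite.Basic
import Mathlib.GroupTheory.Perm.Cycle.Type

/-!
# Admissible discriminants are twice a primitive value of the Eisenstein norm
-/

namespace Vale.Agent.P287T.En

open P287Q.Lat

theorem root_prime {p : ℕ} (hp : p.Prime) (h1 : p % 3 = 1) : ∃ t : ℤ, (p : ℤ) ∣ t ^ 2 + t + 1 := by
  have : Fact p.Prime := ⟨hp⟩
  have : Fact (Nat.Prime 3) := ⟨Nat.prime_three⟩
  obtain ⟨g, hg⟩ := exists_prime_orderOf_dvd_card (G := (ZMod p)ˣ) 3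
    (by rw [ZMod.card_units]; omega)
  have h3 : (g : ZMod p) ^ 3 = 1 := by
    rw [← Units.val_pow_eq_pow_val, ← hg, pow_orderOf_eq_one, Units.val_one]
  have h4 : (g : ZMod p) - 1 ≠ 0 := fun e => by
    rw [show g = 1 from Units.ext (sub_eq_zero.1 e), orderOf_one] at hg
    omega
  refine ⟨((g : ZMod p).val : ℤ), (ZMod.intCast_zmod_eq_zero_iff_dvd _ p).1 ?_⟩
  push_cast
  rw [ZMod.natCast_zmod_val]
  exact (mul_eq_zero.1 (by linear_combination h3)).resolve_left h4

theorem lin_sol {p : ℤ} (hp : Prime p) {a : ℤ} (ha : ¬p ∣ a) (b : ℤ) : ∃ s, p ∣ b + s * a := by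
  obtain ⟨u, v, h⟩ := (hp.coprime_iff_not_dvd).2 ha
  exact ⟨-(b * v), b * u, by linear_combination (-b) * h⟩

theorem root_mul {p n r t : ℤ} (hp : Prime p) (hn : ¬p ∣ n) (hr : p ∣ r ^ 2 + r + 1)
    (ht : n ∣ t ^ 2 + t + 1) : ∃ s : ℤ, p * n ∣ s ^ 2 + s + 1 := by
  obtain ⟨s, k, hk⟩ := lin_sol hp hn (t - r)
  refine ⟨t + s * n, ((hp.coprime_iff_not_dvd).2 hn).mul_dvd ?_ ?_⟩
  · rw [show t + s * n = r + p * k by linear_combination hk,
      show (r + p * k) ^ 2 + (r + p * k) + 1 = r ^ 2 + r + 1 + p * (k * (2 * r + 1 + p * k)) by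
        ring]
    exact hr.add (Dvd.intro _ rfl)
  · rw [show (t + s * n) ^ 2 + (t + s * n) + 1 = t ^ 2 + t + 1 + n * (s * (2 * t + 1 + s * n)) by
      ring]
    exact ht.add (Dvd.intro _ rfl)

theorem root_lift {p n t : ℤ} (hp : Prime p) (h3 : ¬p ∣ 3) (hn : p ∣ n)
    (ht : n ∣ t ^ 2 + t + 1) : ∃ s : ℤ, p * n ∣ s ^ 2 + s + 1 := by
  obtain ⟨m, hm⟩ := ht
  obtain ⟨c, rfl⟩ := hn
  have h : ¬p ∣ 2 * t + 1 := fun ⟨k, hk⟩ => h3 ⟨4 * c * m - p * k ^ 2, by
    have : (2 * t + 1) ^ 2 = (p * k) ^ 2 := by rw [hk]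
    linear_combination 4 * hm - this⟩
  obtain ⟨s, k, hk⟩ := lin_sol hp h m
  exact ⟨t + s * (p * c), k + s ^ 2 * c, by linear_combination hm + p * c * hk⟩

theorem root (n : ℕ) : n ≠ 0 → ¬9 ∣ n → (∀ p : ℕ, p.Prime → p % 3 = 2 → ¬p ∣ n) →
    ∃ t : ℤ, (n : ℤ) ∣ t ^ 2 + t + 1 := by
  induction n using induction_on_primes with
  | zero => exact fun h => (h rfl).elim
  | one => exact fun _ _ _ => ⟨0, by simp⟩
  | prime_mul p a hp ih =>
    intro h0 h9 h2
    obtain ⟨t, ht⟩ := ih (right_ne_zero_of_mul h0) (fun e => h9 (e.mul_left _))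
      fun q hq e k => h2 q hq e (k.mul_left _)
    have hz : Prime (p : ℤ) := Nat.prime_iff_prime_int.1 hp
    push_cast
    by_cases e : p = 3
    · subst e
      refine root_mul (r := 1) hz (fun k => h9 ?_) (by norm_num) ht
      exact Nat.mul_dvd_mul_left 3 (by exact_mod_cast k)
    have h3 : ¬3 ∣ p := fun k => e ((Nat.prime_dvd_prime_iff_eq Nat.prime_three hp).1 k).symm
    have h1 : p % 3 = 1 := by
      have : p % 3 ≠ 2 := fun k => h2 p hp k (Dvd.intro _ rfl)
      omega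
    by_cases k : (p : ℤ) ∣ a
    · refine root_lift hz (fun j => e ?_) k ht
      exact (Nat.prime_dvd_prime_iff_eq hp Nat.prime_three).1 (by exact_mod_cast j)
    · obtain ⟨r, hr⟩ := root_prime hp h1
      exact root_mul hz k hr ht

/-- Reduction of positive forms of discriminant `-3`. -/
theorem reduce (N : ℕ) : ∀ a b c : ℤ, b.natAbs ≤ N → 0 < a → b ^ 2 - 4 * a * c = -3 →
    ∃ x y z w : ℤ, x * w - y * z = 1 ∧ a = nf x y ∧ c = nf z w ∧
      b = 2 * x * z + x * w + y * z + 2 * y * w := by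
  unfold nf
  induction N with
  | zero =>
    intro a b c hb _ h
    obtain rfl : b = 0 := by omega
    have : 4 * (a * c) = 3 := by linear_combination -h
    omega
  | succ N ih =>
    intro a b c hb ha h
    have hc : 0 < c := by nlinarith [sq_nonneg b]
    by_cases h1 : a < b
    · obtain ⟨x, y, z, w, k1, k2, k3, k4⟩ := ih a (b - 2 * a) (c - b + a) (by omega) ha
        (by linear_combination h)
      exact ⟨x, y, z + x, w + y, by linear_combination k1, k2,
        by linear_combination k3 + k4 + k2, by linear_combination k4 + 2 * k2⟩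
    by_cases h2 : b < -a
    · obtain ⟨x, y, z, w, k1, k2, k3, k4⟩ := ih a (b + 2 * a) (c + b + a) (by omega) ha
        (by linear_combination h)
      exact ⟨x, y, z - x, w - y, by linear_combination k1, k2,
        by linear_combination k3 - k4 + k2, by linear_combination k4 - 2 * k2⟩
    by_cases h3 : c < b
    · obtain ⟨x, y, z, w, k1, k2, k3, k4⟩ := ih (a - b + c) (b - 2 * c) c (by omega)
        (by nlinarith [sq_nonneg (b - 2 * c)]) (by linear_combination h)
      exact ⟨x + z, y + w, z, w, by linear_combination k1, by linear_combination k2 + k4 + k3,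
        k3, by linear_combination k4 + 2 * k3⟩
    by_cases h4 : b < -c
    · obtain ⟨x, y, z, w, k1, k2, k3, k4⟩ := ih (a + b + c) (b + 2 * c) c (by omega)
        (by nlinarith [sq_nonneg (b + 2 * c)]) (by linear_combination h)
      exact ⟨x - z, y - w, z, w, by linear_combination k1, by linear_combination k2 - k4 + k3,
        k3, by linear_combination k4 - 2 * k3⟩
    have h5 : b ^ 2 ≤ a * c := by
      rcases le_total a c with e | e <;> nlinarith
    have h6 : a * c = 1 := by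
      have := mul_pos ha hc
      nlinarith
    obtain rfl : a = 1 := Int.eq_one_of_mul_eq_one_right ha.le h6
    obtain rfl : c = 1 := by omega
    obtain rfl | rfl : b = 1 ∨ b = -1 := mul_self_eq_one_iff.1 (by linear_combination h)
    · exact ⟨1, 0, 0, 1, by norm_num⟩
    · exact ⟨1, 0, -1, 1, by norm_num⟩

theorem adm_nf {d : ℤ} (h : Adm d) : ∃ x y : ℤ, IsCoprime x y ∧ d = 2 * nf x y := by
  obtain ⟨h0, h6, h4, h9, hp⟩ := h
  obtain ⟨n, rfl⟩ : ∃ n : ℕ, d = 2 * n := ⟨(d / 2).toNat, by omega⟩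
  obtain ⟨t, m, hm⟩ := root n (by omega) (by omega) fun p h1 h2 h3 => by
    have h5 : (p : ℤ) ∣ n := by exact_mod_cast h3
    by_cases e : p = 2
    · subst e
      omega
    · exact hp p h1 e h2 (h5.mul_left _)
  obtain ⟨x, y, z, w, k1, k2, -⟩ := reduce _ n (2 * t + 1) m le_rfl (by omega)
    (by linear_combination 4 * hm)
  exact ⟨x, y, ⟨w, -z, by linear_combination k1⟩, by rw [k2]⟩

theorem adm_ge {d : ℤ} (h : Adm d) (h6 : 6 < d) : 14 ≤ d := by
  obtain ⟨-, h1, h4, -⟩ := h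
  omega

/-- The arithmetic of the entry point. -/
theorem exists_u {m s : ℤ} (h : Adm (3 * m - s ^ 2)) : ∃ u : Fin 3 → ℤ, u 0 + u 1 + u 2 = s ∧
    u 0 ^ 2 + u 1 ^ 2 + u 2 ^ 2 = m ∧ IsCoprime (u 0 - u 2) (u 1 - u 2) := by
  obtain ⟨x, y, h1, h2⟩ := adm_nf h
  unfold nf at h2
  have h3 : (3 : ℤ) ∣ (s - (x - y)) * (s + (x - y)) :=
    ⟨m - x ^ 2 - y ^ 2, by linear_combination -h2⟩
  rcases Int.prime_three.dvd_or_dvd h3 with ⟨k, e⟩ | ⟨k, e⟩
  · obtain rfl : s = x - y + 3 * k := by omega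
    refine ⟨![x + k, -y + k, k], by simp; ring, ?_, by simpa using h1.neg_right⟩
    simp
    nlinarith
  · obtain rfl : s = y - x + 3 * k := by omega
    refine ⟨![-x + k, y + k, k], by simp; ring, ?_, by simpa using h1.neg_left⟩
    simp
    nlinarith

end Vale.Agent.P287T.En
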