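import Vale.Agent.P287T.En.Ar
import Vale.Agent.P287T.Top.Defs

/-!
# The entry point: an admissible labelling gives a node of Hodge type
-/

set_option linter.style.haveILetI false

namespace Vale.Agent.P287T.En

open MvPolynomial P291Z P269 P287Q P287Q.Cub P287Q.Zc P287T.Per P287T.Top

theorem om_rel : om ^ 2 = -1 - om := by
  have h : (√3 : ℝ) * √3 = 3 := Real.mul_self_sqrt (by norm_num)
  refine Complex.ext ?_ ?_
  · simp [om, sq]
    linear_combination (-1 / 4) * h
  · simp [om, sq]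
    ring

theorem normSq_eis (u : Fin 3 → ℤ) : 2 * Complex.normSq (eis u) =
    3 * (u 0 ^ 2 + u 1 ^ 2 + u 2 ^ 2) - (u 0 + u 1 + u 2) ^ 2 := by
  have h : (√3 : ℝ) * √3 = 3 := Real.mul_self_sqrt (by norm_num)
  rw [eis, om_rel, Complex.normSq_apply]
  simp [om]
  linear_combination ((u 1 : ℝ) - u 2) ^ 2 / 2 * h

theorem entry : ENTRY := by
  rintro F - d ⟨B, η, v, hB, hs, hη, h3, k1, k2, hsat, rfl⟩ ha h6
  obtain ⟨u, u1, u2, a, b, u3⟩ := exists_u ha
  have hJ : ∀ x : Lk (XF F) 4, JF F (x.1 * hyp F ^ 2) = B x η := fun x => by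
    rw [hB x η, hη]
  have hp : ∀ x : Lk (XF F) 4, pr F x.1 = x.1 - ((B x η : ℂ) / 3) • η.1 := fun x => by
    rw [pr, hJ, hη]
  have hn : 2 * Complex.normSq (eis u) = (3 * B v v - B v η ^ 2 : ℤ) := by
    rw [normSq_eis, ← u1, ← u2]
    push_cast
    rfl
  refine ⟨(eis u, pr F v.1), ⟨⟨v.1, v.2, u, by rw [u1, hJ], rfl⟩, ?_,
    ⟨_, _, ⟨u, rfl, rfl, rfl⟩, a, a + b, by linear_combination u3⟩, ?_, ?_⟩, ?_⟩
  · have e1 : ((starRingEnd ℂ (eis u) * eis u).re : ℂ) = (3 * B v v - B v η ^ 2) / 2 := by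
      rw [← Complex.normSq_eq_conj_mul_self, Complex.ofReal_re]
      have := congrArg (fun r : ℝ => (r : ℂ)) hn
      push_cast at this
      linear_combination this / 2
    rw [mk, e1, hp, sub_mul, mul_sub, mul_sub, smul_mul_assoc, smul_mul_assoc, mul_smul_comm,
      mul_smul_comm]
    simp only [map_sub, map_smul, smul_eq_mul]
    rw [← hB, ← hB, ← hB, ← hB, h3, hs.eq η v]
    push_cast
    ring
  · rintro _ ⟨x, hx, t, ht, rfl⟩ k hk ⟨r1, r2, j, e⟩
    lift x to Lk (XF F) 4 using hx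
    have e2 : k • pr F x.1 = j • pr F v.1 := by simpa [l1, l2] using congrArg Prod.snd e
    have e3 : (3 * k) • x = (k * B x η - j * B v η) • η + (3 * j) • v := Subtype.ext (by
      rw [hp, hp] at e2
      simp only [← Int.cast_smul_eq_zsmul ℂ] at e2
      simp only [Submodule.coe_add, Submodule.coe_smul_of_tower, ← Int.cast_smul_eq_zsmul ℂ]
      push_cast
      linear_combination (norm := module) (3 : ℂ) • e2)
    obtain ⟨m, n, e4⟩ := Submodule.mem_span_pair.1 (hsat (3 * k) x (by omega) (e3 ▸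
      Submodule.mem_span_pair.2 ⟨_, _, rfl⟩))
    have e5 : B x η = 3 * m + n * B v η := by
      rw [← e4]
      simp only [map_add, map_smul, LinearMap.add_apply, LinearMap.smul_apply, smul_eq_mul, h3]
      ring
    have e6 : t 0 + t 1 + t 2 = 3 * m + n * (u 0 + u 1 + u 2) := by
      rw [hJ] at ht
      rw [u1, ← e5]
      exact_mod_cast ht
    refine ⟨t 0 - n * u 0 - m, t 0 + t 1 - n * (u 0 + u 1) - 2 * m, n, Prod.ext ?_ ?_⟩
    · have e7 := congrArg (fun r : ℤ => (r : ℂ)) e6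
      simp [l1, l2, eis] at e7 ⊢
      linear_combination om ^ 2 * e7 + m * om_rel
    · simp only [l1, l2, Prod.snd_add, Prod.smul_snd, smul_zero, zero_add]
      rw [hp, hp, e5, ← e4]
      simp only [Submodule.coe_add, Submodule.coe_smul_of_tower, ← Int.cast_smul_eq_zsmul ℂ]
      push_cast
      module
  · have : (14 : ℝ) ≤ (3 * B v v - B v η ^ 2 : ℤ) := by exact_mod_cast adm_ge ha h6
    change 7 ≤ Complex.normSq (eis u)
    linarith
  · haveI := N0_isAct (π₀ (Fin 6))
    change pr F v.1 ∈ TT F 2 2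
    rw [hp]
    exact sub_mem (hd_iff.1 k2) (Submodule.smul_mem _ _ (hd_iff.1 k1))

end Vale.Agent.P287T.En
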